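import Vale.Agent.P101.Defs
import Vale.Agent.P101.Bridge.Hom
import Vale.Agent.P101.Lit.Basic
import Vale.Agent.P101.Lit.Pairs

/-! P101: unital maps of `I(2^a, 3^b)` into an algebra with copies and an `I(2,3)` pair. -/

namespace Vale.Agent.P101.Lit

open scoped unitInterval ComplexOrder Kronecker

/-- Renaming the indices of a stage with scalar coefficients. -/
noncomputable def reindexSt {ι κ : Type*} [Fintype ι] [DecidableEq ι] [Fintype κ] [DecidableEq κ]
    {p q : ℕ} (e₁ : ι ≃ Fin p) (e₂ : κ ≃ Fin q) : St ℂ p q →⋆ₐ[ℂ] dimDrop ι κ where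
  toFun f := ⟨⟨fun t => CStarMatrix.ofMatrix <| Matrix.of fun x y =>
        (f : Amb ℂ p q) t (e₁ x.1, e₂ x.2) (e₁ y.1, e₂ y.2),
      continuous_pi fun x => continuous_pi fun y =>
        (continuous_apply_apply (e₁ x.1, e₂ x.2) (e₁ y.1, e₂ y.2)).comp
          (f : Amb ℂ p q).continuous⟩,
    by
      obtain ⟨⟨a, ha⟩, b, hb⟩ := f.2
      refine ⟨⟨Matrix.of fun i j => a (e₁ i) (e₁ j), ?_⟩,
        Matrix.of fun i j => b (e₂ i) (e₂ j), ?_⟩
      · refine CStarMatrix.ext fun x y => ?_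
        show (f : Amb ℂ p q) 0 (e₁ x.1, e₂ x.2) (e₁ y.1, e₂ y.2) = _
        rw [show (f : Amb ℂ p q) 0 (e₁ x.1, e₂ x.2) (e₁ y.1, e₂ y.2) = _ from ha _ _]
        simp [Matrix.one_apply]
      · refine CStarMatrix.ext fun x y => ?_
        show (f : Amb ℂ p q) 1 (e₁ x.1, e₂ x.2) (e₁ y.1, e₂ y.2) = _
        rw [show (f : Amb ℂ p q) 1 (e₁ x.1, e₂ x.2) (e₁ y.1, e₂ y.2) = _ from hb _ _]
        simp [Matrix.one_apply]⟩
  map_one' := Subtype.ext (ContinuousMap.ext fun t => CStarMatrix.ext fun x y => by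
    simp [CStarMatrix.one_apply, Prod.ext_iff])
  map_mul' f g := Subtype.ext (ContinuousMap.ext fun t => CStarMatrix.ext fun x y => by
    show (((f : Amb ℂ p q) t) * ((g : Amb ℂ p q) t)) _ _ =
      ∑ z : ι × κ, (f : Amb ℂ p q) t _ (e₁ z.1, e₂ z.2) * (g : Amb ℂ p q) t (e₁ z.1, e₂ z.2) _
    rw [CStarMatrix.mul_apply, ← (e₁.prodCongr e₂).sum_comp]
    rfl)
  map_zero' := Subtype.ext (ContinuousMap.ext fun t => CStarMatrix.ext fun x y => by simp)
  map_add' f g := Subtype.ext (ContinuousMap.ext fun t => CStarMatrix.ext fun x y => rfl)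
  commutes' r := Subtype.ext (ContinuousMap.ext fun t => CStarMatrix.ext fun x y => by
    simp [Algebra.algebraMap_eq_smul_one, CStarMatrix.one_apply, Prod.ext_iff])
  map_star' f := Subtype.ext (ContinuousMap.ext fun t => CStarMatrix.ext fun x y => rfl)

theorem nonempty_stageHom {B : Type*} [CStarAlgebra B] (hB : HasCopies B) {c s : B}
    (h : DimDropPair c s) {a b : ℕ} (ha : 1 ≤ a) (hb : 1 ≤ b) {p q : ℕ} (hp : p = 2 ^ a)
    (hq : q = 3 ^ b) :
    Nonempty (St ℂ p q →⋆ₐ[ℂ] B) := by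
  obtain ⟨ψ⟩ := nonempty_hom_of_pair h
  obtain ⟨Φ⟩ := nonempty_hom_pow hB ψ a b
  exact ⟨Φ.comp (reindexSt (finFunctionFinEquiv.trans (finCongr hp.symm))
    (finFunctionFinEquiv.trans (finCongr hq.symm)))⟩

end Vale.Agent.P101.Lit
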